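import Vale.Agent.P359.Main
import Vale.Agent.P359.Point.TwoGoal
import Vale.Agent.P359.Cert.FockProof
import Vale.Agent.P359.Cert.LocalBase

/-!
# P359: the uniform spectral gap at filling one third
-/

namespace Vale.Agent.Results.P359.LaughlinGap

open Vale.Agent.P359

/-- One positive `δ` bounds `H_{N,3(N-1)}` below by `δ (1 - P_L)` for every `N ≥ 2`. -/
theorem result : ∃ δ : ℝ, 0 < δ ∧ ∀ N : ℕ, 2 ≤ N →
    ip (laughlin N (3 * (N - 1))) (laughlin N (3 * (N - 1))) ≠ 0 ∧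
    ham N (3 * (N - 1)) (laughlin N (3 * (N - 1))) = 0 ∧
    ∀ ψ : (Fin N → Orb (3 * (N - 1))) → ℝ, IsAnti ψ →
      δ * (ip ψ ψ - ip (laughlin N (3 * (N - 1))) ψ ^ 2 /
          ip (laughlin N (3 * (N - 1))) (laughlin N (3 * (N - 1))))
        ≤ ip ψ (ham N (3 * (N - 1)) ψ) := by
  obtain ⟨δ, hδ, h⟩ := gap_of_goals (Cert.sectorGoal_of_fock Cert.fockOK) twoGoal_cert
  exact ⟨δ, hδ, fun N hN => ⟨(h N hN).1.1, (h N hN).2, (h N hN).1.2⟩⟩

end Vale.Agent.Results.P359.LaughlinGap
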